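import Vale.Agent.P216K.Riem
import Vale.Agent.P216FA.Defs
import Mathlib.Analysis.Normed.Module.Connected

/-!
# P216LC: no small separating necks far out in complete manifolds with `sec ≥ 0`
-/

open scoped Manifold ContDiff Topology
open Set Filter Metric

noncomputable section

namespace Vale.Agent.P216LC

open Vale.Agent.P216R Vale.Agent.P216K Vale.Agent.P216FA

section metric

variable {Y : Type} [MetricSpace Y]

/-- two segments from `y` with an almost straight comparison angle -/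
lemma NN.wide (hX : NN Y) {c e : ℝ → Y} {A B η s : ℝ} (hc : Iso c (Icc 0 A)) (he : Iso e (Icc 0 B))
    (h0 : c 0 = e 0) (hs : 0 < s) (hA : s ≤ A) (hB : s ≤ B) (hη : η ≤ 2)
    (h : (A + B - dist (c A) (e B)) * (A + B) ≤ η * (A * B)) :
    (2 - η) * s ≤ dist (c s) (e s) := by
  have h1 := hX.ce_mono hc he h0 hs hA hs hB
  have hA' : 0 < A := hs.trans_le hA
  have hB' : 0 < B := hs.trans_le hB
  have h2 : ce c e A B / (A * B) ≤ -2 + 2 * η := by
    rw [div_le_iff₀ (by positivity), ce]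
    nlinarith [sq_nonneg (A + B - dist (c A) (e B))]
  have h3 := h1.trans h2
  rw [div_le_iff₀ (by positivity), ce] at h3
  have h4 : 0 ≤ η := by
    have := dist_triangle (c A) (c 0) (e B)
    rw [dist_comm (c A) (c 0), hc.dist_zero ⟨le_rfl, hA'.le⟩ ⟨hA'.le, le_rfl⟩ hA'.le, h0,
      he.dist_zero ⟨le_rfl, hB'.le⟩ ⟨hB'.le, le_rfl⟩ hB'.le] at this
    exact nonneg_of_mul_nonneg_left ((mul_nonneg (by linarith) (by linarith)).trans h)
      (by positivity)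
  refine abs_le_of_sq_le_sq' ?_ dist_nonneg |>.2
  nlinarith [mul_nonneg (mul_nonneg h4 (sub_nonneg.2 hη)) (sq_nonneg s)]

lemma Iso.piece {c : ℝ → Y} {A r : ℝ} (hc : Iso c (Icc 0 A)) (hr : 0 ≤ r) :
    IsCompact (c '' Icc r A) ∧ IsPreconnected (c '' Icc r A) ∧
      ∀ q ∈ c '' Icc r A, r ≤ dist (c 0) q := by
  have h1 := (hc.mono (Icc_subset_Icc_left hr)).continuousOn
  refine ⟨isCompact_Icc.image_of_continuousOn h1, isPreconnected_Icc.image _ h1, ?_⟩
  rintro _ ⟨t, ht, rfl⟩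
  have h2 := hr.trans ht.1
  rw [hc.dist_zero ⟨le_rfl, h2.trans ht.2⟩ ⟨h2, ht.2⟩ h2]
  exact ht.1

/-- a separating neck of scale `s` between `C` and a far point `p` makes `C` thin -/
lemma NN.core (hX : NN Y) {o y p a b : Y} {s Λ : ℝ} {C : Set Y} (hs : 0 < s) (hΛ : 100 ≤ Λ)
    (c1 : IsCompact C) (c2 : IsPreconnected C) (ho : o ∈ C) (ha : a ∈ C) (hb : b ∈ C)
    (c3 : ∀ q ∈ C, 7 * s ≤ dist y q) (h1 : Λ * s ≤ dist y o) (h2 : Λ * s ≤ dist y p)
    (he : (dist y o + dist y p - dist o p) * (dist y o + dist y p) ≤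
      1 / (2 * Λ) * (dist y o * dist y p))
    (hab : dist p a = dist p b) (hl : dist p a ≤ 3 * (dist y p - 7 * s))
    (H : (∃ u v, Λ * s ≤ dist y u ∧ Λ * s ≤ dist y v ∧ dist y u + dist y v ≤ dist u v + s / 2) →
      ∀ u v, dist y u = 100 * s → dist y v = 100 * s → 160 * s ≤ dist u v → ∀ S, IsCompact S →
        IsPreconnected S → u ∈ S → v ∈ S → ∃ q ∈ S, dist y q < 7 * s) : dist a b ≤ 42 * s := by
  obtain ⟨c, c0, c4, hc⟩ := hX.seg y o
  obtain ⟨e, e0, e4, he'⟩ := hX.seg y p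
  have hη : 1 / (2 * Λ) ≤ 1 / 200 := one_div_le_one_div_of_le (by norm_num) (by linarith)
  have w : ∀ t, 0 < t → t ≤ Λ * s → dist y (c t) = t ∧ dist y (e t) = t ∧
      (2 - 1 / (2 * Λ)) * t ≤ dist (c t) (e t) := fun t h0 ht =>
    ⟨c0 ▸ hc.dist_zero ⟨le_rfl, dist_nonneg⟩ ⟨h0.le, ht.trans h1⟩ h0.le,
      e0 ▸ he'.dist_zero ⟨le_rfl, dist_nonneg⟩ ⟨h0.le, ht.trans h2⟩ h0.le,
      NN.wide hX hc he' (c0.trans e0.symm) h0 (ht.trans h1) (ht.trans h2) (by linarith)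
        (by rwa [c4, e4])⟩
  have h3 : 100 * s ≤ Λ * s := by nlinarith
  obtain ⟨w1, w2, w3⟩ := w (Λ * s) (by nlinarith) le_rfl
  obtain ⟨w4, w5, w6⟩ := w (100 * s) (by linarith) h3
  have H' := H ⟨_, _, w1.ge, w2.ge, by
    have : 1 / (2 * Λ) * (Λ * s) = s / 2 := by field_simp
    rw [w1, w2]; linarith⟩ _ _ w4 w5 (by nlinarith)
  obtain ⟨p1, p2, p3⟩ := Iso.piece hc (r := 100 * s) (by linarith)
  obtain ⟨q1, q2, q3⟩ := Iso.piece he' (r := 100 * s) (by linarith)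
  rw [c0] at p3
  rw [e0] at q3
  have key : ∀ a ∈ C, ∀ α : ℝ → Y, α 0 = p → α (dist p a) = a → Iso α (Icc 0 (dist p a)) →
      ∃ t ∈ Icc 0 (dist p a), dist y (α t) < 7 * s ∧ dist y p - 7 * s < t := by
    intro a ha α a0 a1 hα
    obtain ⟨r1, r2, -⟩ := Iso.piece hα le_rfl
    have m1 : o ∈ c '' Icc (100 * s) (dist y o) := ⟨_, ⟨h3.trans h1, le_rfl⟩, c4⟩
    have m2 : p ∈ e '' Icc (100 * s) (dist y p) := ⟨_, ⟨h3.trans h2, le_rfl⟩, e4⟩
    obtain ⟨q, hq, hq'⟩ := H' _ (((p1.union c1).union r1).union q1)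
      (.union p (Or.inr ⟨0, ⟨le_rfl, dist_nonneg⟩, a0⟩) m2 (.union a (Or.inr ha)
        ⟨_, ⟨dist_nonneg, le_rfl⟩, a1⟩ (.union o m1 ho p2 c2) r2) q2)
      (Or.inl (Or.inl (Or.inl ⟨_, ⟨le_rfl, h3.trans h1⟩, rfl⟩)))
      (Or.inr ⟨_, ⟨le_rfl, h3.trans h2⟩, rfl⟩)
    rcases hq with ((hq | hq) | ⟨t, ht, rfl⟩) | hq
    · linarith [p3 q hq]
    · linarith [c3 q hq]
    · refine ⟨t, ht, hq', ?_⟩
      have := dist_triangle y (α t) (α 0)
      rw [dist_comm (α t), hα.dist_zero ⟨le_rfl, dist_nonneg⟩ ht ht.1, a0] at this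
      linarith
    · linarith [q3 q hq]
  obtain ⟨α, a0, a1, hα⟩ := hX.seg p a
  obtain ⟨β, b0, b1, hβ⟩ := hX.seg p b
  obtain ⟨t, ht, t1, t2⟩ := key a ha α a0 a1 hα
  obtain ⟨u, hu, u1, u2⟩ := key b hb β b0 b1 hβ
  have h7 : 0 < dist y p - 7 * s := by linarith
  have k := hX.ce_mono hα hβ (a0.trans b0.symm) (h7.trans t2) ht.2 (h7.trans u2) hu.2
  have k1 : dist (α t) (β u) < 14 * s := by
    linarith [dist_triangle_left (α t) (β u) y]
  have hl0 : 0 < dist p a := (h7.trans t2).trans_le ht.2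
  simp only [ce, a1, b1] at k
  rw [← hab, div_le_div_iff₀ (mul_pos (h7.trans t2) (h7.trans u2)) (by positivity)] at k
  have k2 : dist p a * dist p a ≤ 9 * (t * u) := by nlinarith
  have k3 : dist (α t) (β u) ^ 2 ≤ (14 * s) ^ 2 := pow_le_pow_left₀ dist_nonneg k1.le 2
  have k4 : 0 < t * u := mul_pos (h7.trans t2) (h7.trans u2)
  refine abs_le_of_sq_le_sq' (le_of_mul_le_mul_right ?_ k4) (by linarith) |>.2
  nlinarith [mul_nonneg (sq_nonneg (t - u)) (mul_self_nonneg (dist p a)),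
    mul_le_mul k3 k2 (mul_self_nonneg _) (sq_nonneg _)]

end metric

variable {M : Type} [TopologicalSpace M] [ChartedSpace E3 M]

/-- the ball of radius `7 s` about `y` separates far apart points at the distance `100 s` -/
def SEP1 (g : Ten E3 M) (U : Set M) (y : M) (s : ℝ) : Prop :=
  ∀ a b, dd g U y a = 100 * s → dd g U y b = 100 * s → 160 * s ≤ dd g U a b → ∀ S, IsCompact S →
    IsPreconnected S → S ⊆ U → a ∈ S → b ∈ S → ∃ q ∈ S, q ∈ bl g U y (7 * s)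

/-- what survives of the separating necks in a limit -/
def LS (L A : ℝ) (g : Ten E3 M) (U : Set M) : Prop :=
  ∀ y ∈ U, L < Sc g y → AL g U y ((A + 1) * sg g y) (sg g y / 2) → SEP1 g U y (sg g y)

lemma exists_disc {U : Set M} (hU : IsOpen U) {o : M} (ho : o ∈ U) : ∃ (ψ : E3 → M) (ρ : ℝ),
    0 < ρ ∧ ψ 0 = o ∧ ContinuousOn ψ (closedBall 0 ρ) ∧ MapsTo ψ (closedBall 0 ρ) U ∧
      InjOn ψ (closedBall 0 ρ) := by
  obtain ⟨ρ, h0, h1⟩ := nhds_basis_closedBall.mem_iff.1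
    ((isOpen_dom (E := E3) o hU).mem_nhds (pt_mem_dom ho))
  have h2 : MapsTo (fun v => pt E3 o + v) (closedBall 0 ρ) (dom E3 o U) := fun v hv =>
    h1 (by simpa using hv)
  refine ⟨fun v => (chartAt E3 o).symm (pt E3 o + v), ρ, h0, by simp only [add_zero, symm_pt],
    (chartAt E3 o).continuousOn_symm.comp (by fun_prop) fun v hv => (h2 hv).1,
    fun v hv => (h2 hv).2, fun v hv w hw e => ?_⟩
  exact add_left_cancel ((chartAt E3 o).symm.injOn (h2 hv).1 (h2 hw).1 e)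

lemma exists_anti {ρ : ℝ} (hρ : 0 < ρ) {f : E3 → ℝ} (hf : ContinuousOn f (sphere 0 ρ)) :
    ∃ v ∈ sphere (0 : E3) ρ, f v = f (-v) := by
  obtain ⟨v, hv⟩ := (NormedSpace.sphere_nonempty (x := (0 : E3))).2 hρ.le
  have hn : MapsTo (fun v : E3 => -v) (sphere 0 ρ) (sphere 0 ρ) := fun v hv => by simpa using hv
  have hc := isPreconnected_sphere (E := E3)
    (by rw [← Module.finrank_eq_rank]; simp) 0 ρ
  have h2 := hf.comp continuous_neg.continuousOn hn
  rcases le_total (f v) (f (-v)) with h | h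
  · exact hc.intermediate_value₂ hv (hn hv) hf h2 h (by simpa using h)
  · exact hc.intermediate_value₂ (hn hv) hv hf h2 (by simpa using h) h

variable [IsManifold 𝓘(ℝ, E3) ∞ M]

lemma core_sp {g : Ten E3 M} {U C : Set M} (m : MS g U) (hc : Cpl g U) (h0 : ∀ y ∈ U, SecGe g y 0)
    {o y p a b : M} {s Λ : ℝ} (hs : 0 < s) (hΛ : 100 ≤ Λ) (c1 : IsCompact C)
    (c2 : IsPreconnected C) (hC : C ⊆ U) (ho : o ∈ C) (ha : a ∈ C) (hb : b ∈ C) (hy : y ∈ U)
    (hp : p ∈ U) (c3 : ∀ q ∈ C, 7 * s ≤ dd g U y q) (h1 : Λ * s ≤ dd g U y o)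
    (h2 : Λ * s ≤ dd g U y p) (he : (dd g U y o + dd g U y p - dd g U o p) *
      (dd g U y o + dd g U y p) ≤ 1 / (2 * Λ) * (dd g U y o * dd g U y p))
    (hab : dd g U p a = dd g U p b) (hl : dd g U p a ≤ 3 * (dd g U y p - 7 * s))
    (H : AL g U y (Λ * s) (s / 2) → SEP1 g U y s) : dd g U a b ≤ 42 * s := by
  have e := Sp.emb m
  have hr : C ⊆ range (Sp.val : Sp m → M) := by rwa [Sp.range_val]
  refine NN.core (nn_sp m hc h0) (o := Sp.mk m o (hC ho)) (y := Sp.mk m y hy) (p := Sp.mk m p hp)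
    (a := Sp.mk m a (hC ha)) (b := Sp.mk m b (hC hb)) (C := Sp.val ⁻¹' C) hs hΛ
    (e.isInducing.isCompact_preimage' c1 hr)
    (e.isInducing.isPreconnected_image.1 (by rwa [image_preimage_eq_of_subset hr])) ho ha hb
    (fun q hq => c3 _ hq) h1 h2 he hab hl fun ⟨u, v, k1, k2, k3⟩ u' v' l1 l2 l3 S s1 s2 l4 l5 => ?_
  obtain ⟨_, ⟨q, hq, rfl⟩, hq'⟩ := H ⟨_, u.prop, _, v.prop, k1, k2, k3⟩ _ _ l1 l2 l3 _
    (s1.image e.continuous) (s2.image _ e.continuous.continuousOn)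
    (fun _ ⟨q, _, hq⟩ => hq ▸ q.prop) ⟨_, l4, rfl⟩ ⟨_, l5, rfl⟩
  exact ⟨q, hq, (mem_bl_iff.1 hq').2⟩

/-- **Bounded curvature far out**, uniformly for metrics at bounded distance. -/
theorem s3u {ι : Type} {g : Ten E3 M} {h : ι → Ten E3 M} {U : Set M} {o : M} {D L A : ℝ}
    (hH : Hs U) (hU : IsPreconnected U) (ho : o ∈ U) (hA : 99 ≤ A) (hg : Met g U) (c0 : Cpl g U)
    (s0 : ∀ y ∈ U, SecGe g y 0) (hh : ∀ i, Met (h i) U) (c1 : ∀ i, Cpl (h i) U)
    (s1 : ∀ i, ∀ y ∈ U, SecGe (h i) y 0)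
    (hd : ∀ i, ∀ x ∈ U, ∀ y ∈ U, dd g U x y ≤ dd (h i) U x y ∧ dd (h i) U x y ≤ dd g U x y + D)
    (hL : ∀ i, LS L A (h i) U) : ∃ R K, ∀ i, ∀ y ∈ U, R ≤ dd g U o y → Sc (h i) y ≤ K := by
  by_contra! hn
  choose i y hy h1 h2 using fun n : ℕ => hn n n
  have m := hg.ms hH hU
  have hD : 0 ≤ D := by simpa [dd_self] using (hd (i 0) o ho o ho).2
  have := Sp.proper m c0
  have t1 : Tendsto (fun n => dd g U o (y n)) (hyperfilter ℕ) atTop :=
    (tendsto_atTop_mono h1 tendsto_natCast_atTop_atTop).mono_left Nat.hyperfilter_le_atTop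
  obtain ⟨α, a0, a1, a2⟩ := (nn_sp m c0 s0).asym_ray (hyperfilter ℕ) (q := Sp.mk m o ho)
    (a := fun n => Sp.mk m (y n) (hy n)) t1
  obtain ⟨ψ, ρ, hρ, w0, w1, w2, w3⟩ := exists_disc hg.isOpen ho
  have hn : MapsTo (fun v : E3 => -v) (sphere 0 ρ) (closedBall 0 ρ) := fun v hv => by
    simpa using (mem_sphere_zero_iff_norm.1 hv).le
  have cd : ∀ {k : Ten E3 M}, Met k U → ∀ {X : Type} [TopologicalSpace X] {f f' : X → M} {S : Set X},
      ContinuousOn f S → ContinuousOn f' S → MapsTo f S U → MapsTo f' S U →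
      ContinuousOn (fun v => dd k U (f v) (f' v)) S := fun hk X _ f f' S b1 b2 b3 b4 v hv =>
    ContinuousAt.comp_continuousWithinAt (f := fun v => (f v, f' v))
      (hk.continuousAt_dd (hk.ed_ne_top hU subset_rfl (b3 hv) (b4 hv))) ((b1 v hv).prodMk (b2 v hv))
  obtain ⟨v₀, hv₀, hm⟩ := (isCompact_sphere (0 : E3) ρ).exists_isMinOn
    (NormedSpace.sphere_nonempty.2 hρ.le) (cd hg (w1.mono sphere_subset_closedBall)
      (w1.comp continuous_neg.continuousOn hn) (w2.mono_left sphere_subset_closedBall) (w2.comp hn))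
  have hc : 0 < dd g U (ψ v₀) (ψ (-v₀)) :=
    hg.dd_pos hH (m.fin _ (w2 (sphere_subset_closedBall hv₀)) _ (w2 (hn hv₀))) fun e => by
      have := w3 (sphere_subset_closedBall hv₀) (hn hv₀) e
      have h3 : v₀ = 0 := by
        rw [← smul_right_inj (two_ne_zero (α := ℝ)), two_smul, smul_zero]; exact add_eq_zero_iff_eq_neg.2 this
      exact hρ.ne (by simpa [h3] using hv₀)
  obtain ⟨r, hr⟩ := (isCompact_closedBall (0 : E3) ρ).exists_bound_of_continuousOn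
    (cd hg continuousOn_const w1 (fun _ _ => ho) w2)
  have t2 : Tendsto (fun n => Sc (h (i n)) (y n)) (hyperfilter ℕ) atTop :=
    (tendsto_atTop_mono (fun n => (h2 n).le) tendsto_natCast_atTop_atTop).mono_left
      Nat.hyperfilter_le_atTop
  have t3 : Tendsto (fun n => sg (h (i n)) (y n)) (hyperfilter ℕ) (𝓝 0) :=
    (Real.tendsto_sqrt_atTop.comp t2).inv_tendsto_atTop
  have hΛ : 0 < 12 * (A + 1) := by linarith
  obtain ⟨n, n1, n2, n3, n4, n5, n6⟩ := ((t2.eventually_gt_atTop (max L 0)).and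
    ((t3.eventually (gt_mem_nhds (div_pos hc (by norm_num : (0 : ℝ) < 42)))).and
    ((t3.eventually (gt_mem_nhds one_pos)).and ((a2.eventually (gt_mem_nhds (inv_pos.2 hΛ))).and
    ((t1.eventually_ge_atTop (12 * (A + 1) * (2 * D))).and
      (t1.eventually_ge_atTop (A + 1 + r + D + 21))))))).exists
  change dist (Sp.mk m (y n) (hy n)) (α (dd g U o (y n))) / dd g U o (y n) < _ at n4
  have r0 : 0 ≤ r := (norm_nonneg _).trans (hr 0 (mem_closedBall_self hρ.le))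
  have hs : 0 < sg (h (i n)) (y n) :=
    inv_pos.2 (Real.sqrt_pos.2 ((le_max_right _ _).trans_lt n1))
  set s := sg (h (i n)) (y n)
  set d := dd g U o (y n) with hdd
  have d0 : 0 < d := by linarith
  rw [div_lt_iff₀ d0, inv_mul_eq_div, lt_div_iff₀ hΛ] at n4
  set δ := dist (Sp.mk m (y n) (hy n)) (α d)
  have δ0 : 0 ≤ δ := dist_nonneg
  have hp := (α (2 * d)).prop
  have e1 : dd g U o (α (2 * d)).val = 2 * d := by
    have := a1.dist_zero (mem_Ici.2 le_rfl) (s := 2 * d) (mem_Ici.2 (by linarith)) (by linarith)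
    rwa [a0] at this
  have e2 : dd g U (y n) (α (2 * d)).val ≤ δ + d := by
    have := dist_triangle (Sp.mk m (y n) (hy n)) (α d) (α (2 * d))
    rw [a1 d (mem_Ici.2 d0.le) (2 * d) (mem_Ici.2 (by linarith)), abs_of_nonpos (by linarith)] at this
    exact this.trans_eq (by ring)
  have tr := fun x hx y hy z hz => dd_triangle (m.fin x hx y hy) (m.fin y hy z hz)
  set p := (α (2 * d)).val
  have e3 : d ≤ dd g U (y n) p := by linarith [tr o ho _ (hy n) p hp]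
  obtain ⟨v, hv, e4⟩ := exists_anti hρ (cd (hh (i n)) (continuousOn_const (c := p))
    (w1.mono sphere_subset_closedBall) (fun _ _ => hp) (w2.mono_left sphere_subset_closedBall))
  have hv' := sphere_subset_closedBall hv
  have b1 := hd (i n) _ (hy n) o ho
  have b2 := hd (i n) _ (hy n) p hp
  have b3 := hd (i n) o ho p hp
  rw [dd_comm (x := y n), ← hdd] at b1
  have k := core_sp ((hh (i n)).ms hH hU) (c1 _) (s1 _) (C := ψ '' closedBall 0 ρ) (o := o) hs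
    (Λ := A + 1) (by linarith) ((isCompact_closedBall 0 ρ).image_of_continuousOn w1)
    ((convex_closedBall 0 ρ).isPreconnected.image _ w1) w2.image_subset
    ⟨0, mem_closedBall_self hρ.le, w0⟩ ⟨v, hv', rfl⟩ ⟨-v, hn hv, rfl⟩ (hy n) hp ?_
    (by nlinarith [b1.1]) (by nlinarith [b2.1]) ?_ e4 ?_
    (hL _ _ (hy n) ((le_max_left _ _).trans_lt n1))
  · rw [lt_div_iff₀ (by norm_num)] at n2
    have : dd g U (ψ v₀) (ψ (-v₀)) ≤ dd g U (ψ v) (ψ (-v)) := hm hv
    linarith [(hd (i n) _ (w2 hv') _ (w2 (hn hv))).1]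
  · rintro _ ⟨u, hu, rfl⟩
    have := tr o ho _ (w2 hu) _ (hy n)
    rw [dd_comm (x := ψ u)] at this
    linarith [(hd (i n) _ (hy n) _ (w2 hu)).1, (abs_le.1 (hr u hu)).2]
  · have f1 : (δ + 2 * D) * (6 * (A + 1)) ≤ d := by linarith
    have f2 : δ + 2 * D ≤ d := by nlinarith
    rw [one_div_mul_eq_div, le_div_iff₀ (by linarith)]
    have f3 := mul_le_mul (show dd (h (i n)) U (y n) o + dd (h (i n)) U (y n) p -
      dd (h (i n)) U o p ≤ δ + 2 * D by linarith [b1.2, b2.2, b3.1])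
      (show dd (h (i n)) U (y n) o + dd (h (i n)) U (y n) p ≤ 3 * d by linarith [b1.2, b2.2])
      (add_nonneg dd_nonneg dd_nonneg) (by linarith)
    have f4 := mul_le_mul b1.1 (e3.trans b2.1) d0.le dd_nonneg
    nlinarith
  · have := tr p hp o ho _ (w2 hv')
    rw [dd_comm (x := p) (y := o)] at this
    linarith [(hd (i n) p hp _ (w2 hv')).2, (abs_le.1 (hr v hv')).2, b2.1]

end Vale.Agent.P216LC
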