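import Vale.Agent.P216H.Bar
import Vale.Agent.P216MP.Vs
import Vale.Agent.P216D.ModE
import Vale.Agent.P216BF.Scal
import Vale.Agent.P216DC.LimS

/-!
# P216LC: the maximum principle on complete flows with bounded nonnegative curvature
-/

open scoped Manifold ContDiff Topology
open Set Filter

set_option maxSynthPendingDepth 3

noncomputable section

namespace Vale.Agent.P216LC

open Vale.Agent.P216R Vale.Agent.P216MP Vale.Agent.P216BF Vale.Agent.P216D
open Vale.Agent.P210.R2.H53 (lapG)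

variable {M : Type} [TopologicalSpace M] [ChartedSpace E3 M] [IsManifold 𝓘(ℝ, E3) ∞ M]
  {g : ℝ → Ten E3 M} {a b K B : ℝ} {U : Set M}

/-- a complete connected flow on `[a, b]` with bounded nonnegative curvature -/
structure CB (g : ℝ → Ten E3 M) (a b : ℝ) (U : Set M) (K : ℝ) : Prop where
  rf : P216R.RF g (Icc a b) U
  le : a ≤ b
  hs : Hs U
  conn : IsPreconnected U
  cpl : Cpl (g b) U
  sec : ∀ t ∈ Icc a b, ∀ x ∈ U, SecGe (g t) x 0
  bd : ∀ t ∈ Icc a b, ∀ x ∈ U, Sc (g t) x ≤ K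

theorem CB.sc_nonneg (h : CB g a b U K) {t : ℝ} (ht : t ∈ Icc a b) {x : M} (hx : x ∈ U) :
    0 ≤ Sc (g t) x := by
  simpa using sc_ge3 finrank_E3 (h.rf.met ht) hx (h.sec t ht x hx)

theorem CB.ricB (h : CB g a b U K) : RicB g (Icc a b) U (max K 0) := fun t ht x hx => by
  have hm := h.rf.met ht
  refine ⟨(ricGe3 finrank_E3 hm hx (h.sec t ht x hx)).mono (hm.nonneg hx) (by simp), fun v => ?_⟩
  have h1 := ricLe_sc3 finrank_E3 hm hx (κ := 0) (by simpa using h.sec t ht x hx) v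
  refine h1.trans (mul_le_mul_of_nonneg_right ?_ (hm.nonneg hx v))
  linarith [h.bd t ht x hx, h.sc_nonneg ht hx, le_max_left K 0]

omit [IsManifold 𝓘(ℝ, E3) ∞ M] in
theorem bar_up {ρ : ℝ → M → ℝ} (h : P216H.Bar g a b U ρ B) {t : ℝ} (ht : t ∈ Ioc a b) {x : M}
    (hx : x ∈ U) (c l : ℝ) (hc : 0 ≤ c) : ∃ d f,
      Up E3 (fun s y => c * Real.exp (l * s) * ρ s y) t x d f ∧
        (l - B) * (c * Real.exp (l * t) * ρ t x) ≤ d - lap (g t) f x := by
  obtain ⟨F, d, f1, f2, f3, f4, f5⟩ := h.sup t (Ioc_subset_Icc_self ht) x hx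
  have he : ∀ s k : ℝ, rd E3 (fun y => k * F (s, chartAt E3 x y)) x =ᶠ[𝓝 (pt E3 x)]
      fun z => k * F (s, z) := fun s k => by
    filter_upwards [(chartAt E3 x).open_target.mem_nhds (pt_mem x)] with z hz
    simp only [rd, Function.comp, (chartAt E3 x).right_inv hz]
  have hF : ContDiffAt ℝ ∞ (fun z => F (t, z)) (pt E3 x) := by fun_prop
  have h1 : HasDerivAt (fun s => c * Real.exp (l * s) * F (s, pt E3 x))
      (c * (Real.exp (l * t) * l) * F (t, pt E3 x) + c * Real.exp (l * t) * d) t :=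
    HasDerivAt.mul (((hasDerivAt_id' t).const_mul l).exp.const_mul c |>.congr_deriv (by simp)) f3
  have h2 := up_smooth (E := E3) (w := fun s y => c * Real.exp (l * s) * F (s, chartAt E3 x y))
    (I := univ) univ_mem h1.hasDerivWithinAt
    ((contDiffAt_const.mul hF).congr_of_eventuallyEq (he _ _))
  have hp : ∀ s, 0 ≤ c * Real.exp (l * s) := fun s => by positivity
  refine ⟨_, _, h2.of_le (by rw [← f2]; rfl) ?_ ?_, ?_⟩
  · filter_upwards [Ioo_mem_nhdsLT ht.1] with s hs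
    have := f4.self_of_nhds s ⟨hs.1.le, hs.2.le⟩
    rw [symm_pt] at this
    exact mul_le_mul_of_nonneg_left this (hp s)
  · filter_upwards [((chartAt E3 x).continuousAt (mem_chart_source E3 x)).eventually f4,
      (chartAt E3 x).open_source.mem_nhds (mem_chart_source E3 x)] with y h1 h2
    have := h1 t ⟨ht.1.le, le_rfl⟩
    rw [(chartAt E3 x).left_inv h2] at this
    exact mul_le_mul_of_nonneg_left this (hp t)
  · rw [lap, lapG_congr EventuallyEq.rfl (he _ _), lapG_const_mul _ hF, f2]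
    nlinarith [mul_le_mul_of_nonneg_left f5 (hp t)]

/-- **The maximum principle** on complete flows, for functions bounded below. -/
theorem CB.nmp (h : CB g a b U K) {u : ℝ → M → ℝ} {C L : ℝ}
    (hu : ContinuousOn (fun q : ℝ × M => u q.1 q.2) (Icc a b ×ˢ U))
    (hL : ∀ t ∈ Icc a b, ∀ x ∈ U, -L ≤ u t x) (ha : ∀ x ∈ U, 0 ≤ u a x)
    (hv : ∀ t ∈ Ioc a b, ∀ x ∈ U, u t x < 0 → Vs (g t) u t x (C * u t x)) :
    ∀ t ∈ Icc a b, ∀ x ∈ U, 0 ≤ u t x := by
  intro t ht x hx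
  have hb := P216H.exists_bar h.rf h.le h.hs h.conn h.cpl h.sec (le_max_right K 0) h.ricB hx
  set ρ : ℝ → M → ℝ := fun t y => 1 + dd (g t) U x y ^ 2
  set l := |2 * max K 0 + 24| + |C|
  have hl : 0 ≤ l := by positivity
  have key : ∀ c > 0, 0 ≤ u t x + c * Real.exp (l * t) * ρ t x := fun c hc => by
    obtain ⟨T, t1, t2, t3⟩ := hb.cpt (L / (c * Real.exp (l * a)))
    have hp : ∀ s y, 0 < c * Real.exp (l * s) * ρ s y := fun s y =>
      mul_pos (by positivity) (one_pos.trans_le (hb.one s y))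
    refine wmp_on (g := g) (K := C) (T := Icc a b ×ˢ T)
      (u := fun s y => u s y + c * Real.exp (l * s) * ρ s y) h.rf.isOpen (isCompact_Icc.prod t1)
      (prod_mono le_rfl t2) ((hu.add (ContinuousOn.mul (by fun_prop) hb.cont)).mono
        (prod_mono le_rfl t2)) (fun s hs y hy hn => ?_) (fun y hy => (add_pos_of_nonneg_of_pos
          (ha y hy) (hp a y)).le) (fun s hs y hy _ hn => ?_) t ht x hx
    · have h1 : L / (c * Real.exp (l * a)) < ρ s y := not_le.1 fun e => hn ⟨hs, t3 s hs y hy e⟩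
      rw [div_lt_iff₀ (by positivity)] at h1
      have h2 : c * Real.exp (l * a) ≤ c * Real.exp (l * s) := by gcongr; exact hs.1
      nlinarith [hL s hs y hy, hb.one s y]
    · obtain ⟨d, f, f1, f2⟩ := bar_up hb hs hy c l hc.le
      refine ((hv s hs y hy (by linarith [hp s y])).add_up f1).mono ?_
      have : C ≤ l - (2 * max K 0 + 24) := by
        linarith [le_abs_self C, le_abs_self (2 * max K 0 + 24)]
      nlinarith [hp s y]
  refine le_of_forall_pos_le_add fun e he => ?_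
  have hp : 0 < Real.exp (l * t) * ρ t x := mul_pos (Real.exp_pos _) (one_pos.trans_le (hb.one t x))
  have := key (e / (Real.exp (l * t) * ρ t x)) (by positivity)
  rwa [mul_assoc, div_mul_cancel₀ _ hp.ne'] at this

/-- the square of the norm of the Ricci tensor -/
def rq (g : Ten E3 M) (x : M) : ℝ := ∑ i, ∑ j, Ric g x (fr0 (g x) i) (fr0 (g x) j) ^ 2

theorem sc_fr0 {g : Ten E3 M} (hg : Met g U) {x : M} (hx : x ∈ U) :
    Sc g x = ∑ i, Ric g x (fr0 (g x) i) (fr0 (g x) i) := by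
  rw [Sc, scG, co_pt, (fr0_on (hg.symm x hx) (hg.pos x hx)).trB (hg.pos x hx)]; rfl

theorem le_rq {g : Ten E3 M} (hg : Met g U) {x : M} (hx : x ∈ U) : Sc g x ^ 2 ≤ 3 * rq g x := by
  rw [sc_fr0 hg hx, rq]
  simp only [Fin.sum_univ_three]
  set r := fun i j => Ric g x (fr0 (g x) i) (fr0 (g x) j)
  nlinarith [sq_nonneg (r 0 0 - r 1 1), sq_nonneg (r 0 0 - r 2 2), sq_nonneg (r 1 1 - r 2 2),
    sq_nonneg (r 0 1), sq_nonneg (r 0 2), sq_nonneg (r 1 0), sq_nonneg (r 1 2), sq_nonneg (r 2 0),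
    sq_nonneg (r 2 1)]

theorem rq_le {g : Ten E3 M} (hg : Met g U) {x : M} (hx : x ∈ U) (hs : SecGe g x 0) :
    2 * rq g x ≤ Sc g x ^ 2 := by
  have hf := fr0_on (hg.symm x hx) (hg.pos x hx)
  have h0 : 0 ≤ Sc g x := by simpa using sc_ge3 finrank_E3 hg hx hs
  have h1 : ∀ v, 0 ≤ Ric g x v v := fun v => by simpa using ricGe3 finrank_E3 hg hx hs v
  have h2 := ricLe_sc3 finrank_E3 hg hx (κ := 0) (by simpa using hs)
  have key : ∀ c > Sc g x / 2, rq g x ≤ c * Sc g x := fun c hc => by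
    rw [rq, sc_fr0 hg hx, Finset.mul_sum]
    refine Finset.sum_le_sum fun i _ => ?_
    set e := fr0 (g x)
    set w := ∑ j, Ric g x (e i) (e j) • e j with hw
    have a1 : Ric g x (e i) w = ∑ j, Ric g x (e i) (e j) ^ 2 := by simp [hw, sq]
    have a2 : g x w w = ∑ j, Ric g x (e i) (e j) ^ 2 := by
      conv_lhs => rw [hf.pars (g x w) w]
      simp only [hw, hf.sum_left, sq]
    have a3 := h1 (w - c • e i)
    have a4 : Ric g x w w ≤ c * g x w w :=
      (h2 w).trans (mul_le_mul_of_nonneg_right (by linarith) (hg.nonneg hx w))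
    simp only [map_sub, map_smul, sub_apply, smul_apply, smul_eq_mul, ric_symm hg hx w (e i),
      a1] at a3
    rw [a2] at a4
    have hc0 : 0 < c := by linarith
    refine le_of_mul_le_mul_left ?_ hc0
    nlinarith
  refine le_of_forall_pos_le_add fun e he => ?_
  have := key (Sc g x / 2 + e / (2 * (Sc g x + 1))) (lt_add_of_pos_right _ (by positivity))
  have h3 : e / (2 * (Sc g x + 1)) * Sc g x * 2 ≤ e := by
    rw [div_mul_eq_mul_div, div_mul_eq_mul_div, div_le_iff₀ (by positivity)]; nlinarith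
  nlinarith

/-- the evolution of the scalar curvature in barrier form -/
theorem up_sc (h : P216R.RF g (Icc a b) U) {t : ℝ} (ht : t ∈ Ioc a b) {x : M} (hx : x ∈ U)
    (c : ℝ) {φ : ℝ → ℝ} {φ' : ℝ} (hφ : HasDerivWithinAt φ φ' (Icc a b) t) :
    Vs (g t) (fun s y => c * (Sc (g s) y - φ s)) t x (c * (2 * rq (g t) x - φ')) := by
  have ht' := Ioc_subset_Icc_self ht
  have hm := h.met ht'
  have h1 := evol_Sc h (iv_Icc (ht.1.trans_le ht.2)) ht' hx (on_fr0 h.toFam ht' hx)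
  have h2 : SA E3 (Sc (g t)) x := sa_of ((sc_smooth hm).contMDiffAt (hm.isOpen.mem_nhds hx))
  have h3 := (up_smooth (w := fun s y => c * (Sc (g s) y - φ s)) (Icc_mem_nhdsLT_of_mem ht)
    ((h1.sub hφ).const_mul c) (contDiffAt_const.mul (h2.sub (sa_const _)))).vs hm hx
  refine h3.mono (le_of_eq ?_)
  rw [lap_const_mul _ (h2.sub (sa_const _)), lap_sub h2 (sa_const _), lap_const, rq]
  ring

theorem CB.cont (h : CB g a b U K) {φ φ' : ℝ → ℝ}
    (hφ : ∀ t ∈ Icc a b, HasDerivWithinAt φ (φ' t) (Icc a b) t) (c : ℝ) :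
    ContinuousOn (fun q : ℝ × M => c * (Sc (g q.1) q.2 - φ q.1)) (Icc a b ×ˢ U) :=
  continuousOn_const.mul ((sc_cont h.rf.toFam).sub
    (ContinuousOn.comp (g := φ) (fun t ht => (hφ t ht).continuousWithinAt) continuousOn_fst
      fun _ hq => hq.1))

/-- lower bounds for the scalar curvature -/
theorem CB.sc_ge (h : CB g a b U K) {φ φ' : ℝ → ℝ}
    (hφ : ∀ t ∈ Icc a b, HasDerivWithinAt φ (φ' t) (Icc a b) t)
    (h1 : ∀ t ∈ Icc a b, φ' t ≤ 2 / 3 * φ t ^ 2) (ha : ∀ x ∈ U, φ a ≤ Sc (g a) x) :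
    ∀ t ∈ Icc a b, ∀ x ∈ U, φ t ≤ Sc (g t) x := fun t ht x hx => by
  obtain ⟨L, hL⟩ := isCompact_Icc.exists_bound_of_continuousOn
    fun t ht => (hφ t ht).continuousWithinAt
  have := h.nmp (u := fun s y => 1 * (Sc (g s) y - φ s)) (C := 2 / 3 * (K + L)) (L := L)
    (h.cont hφ 1) (fun s hs y hy => by linarith [h.sc_nonneg hs hy, (abs_le.1 (hL s hs)).2])
    (fun y hy => by linarith [ha y hy]) (fun s hs y hy hn => ?_) t ht x hx
  · linarith
  · have hs' := Ioc_subset_Icc_self hs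
    refine (up_sc h.rf hs hy 1 (hφ s hs')).mono ?_
    nlinarith [le_rq (h.rf.met hs') hy, h1 s hs', h.bd s hs' y hy, (abs_le.1 (hL s hs')).2]

/-- the infimum of the scalar curvature does not decrease -/
theorem CB.sc_min (h : CB g a b U K) {m : ℝ} (ha : ∀ x ∈ U, m ≤ Sc (g a) x) :
    ∀ t ∈ Icc a b, ∀ x ∈ U, m ≤ Sc (g t) x :=
  h.sc_ge (φ := fun _ => m) (φ' := fun _ => 0) (fun _ _ => hasDerivWithinAt_const _ _ _)
    (fun _ _ => by positivity) ha

/-- upper bounds for the scalar curvature -/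
theorem CB.sc_le (h : CB g a b U K) {φ φ' : ℝ → ℝ}
    (hφ : ∀ t ∈ Icc a b, HasDerivWithinAt φ (φ' t) (Icc a b) t)
    (h1 : ∀ t ∈ Icc a b, φ t ^ 2 ≤ φ' t) (ha : ∀ x ∈ U, Sc (g a) x ≤ φ a) :
    ∀ t ∈ Icc a b, ∀ x ∈ U, Sc (g t) x ≤ φ t := fun t ht x hx => by
  obtain ⟨L, hL⟩ := isCompact_Icc.exists_bound_of_continuousOn
    fun t ht => (hφ t ht).continuousWithinAt
  have := h.nmp (u := fun s y => -1 * (Sc (g s) y - φ s)) (C := K + L) (L := K + L)
    (h.cont hφ (-1)) (fun s hs y hy => by linarith [h.bd s hs y hy, (abs_le.1 (hL s hs)).1])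
    (fun y hy => by linarith [ha y hy]) (fun s hs y hy hn => ?_) t ht x hx
  · linarith
  · have hs' := Ioc_subset_Icc_self hs
    refine (up_sc h.rf hs hy (-1) (hφ s hs')).mono ?_
    nlinarith [rq_le (h.rf.met hs') hy (h.sec s hs' y hy), h1 s hs', h.bd s hs' y hy,
      (abs_le.1 (hL s hs')).2]

/-- the doubling time of the supremum of the scalar curvature -/
theorem CB.sc_two (h : CB g a b U K) {c : ℝ} (hc : 0 < c) (hab : c * (b - a) ≤ 1 / 2)
    (ha : ∀ x ∈ U, Sc (g a) x ≤ c) : ∀ t ∈ Icc a b, ∀ x ∈ U, Sc (g t) x ≤ 2 * c := fun t ht x hx => by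
  have hp : ∀ s ∈ Icc a b, 1 / 2 ≤ 1 - c * (s - a) := fun s hs => by nlinarith [hs.2]
  have := h.sc_le (φ := fun s => c / (1 - c * (s - a))) (φ' := fun s => (c / (1 - c * (s - a))) ^ 2)
    (fun s hs => ?_) (fun _ _ => le_rfl) (by simpa using ha) t ht x hx
  · refine this.trans ?_
    rw [div_le_iff₀ (by linarith [hp t ht])]
    nlinarith [hp t ht]
  · have h0 : 1 - c * (s - a) ≠ 0 := by linarith [hp s hs]
    refine (((hasDerivAt_const s c).fun_div ((((hasDerivAt_id' s).sub_const a).const_mul c).const_sub 1)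
      h0).congr_deriv ?_).hasDerivWithinAt
    field_simp
    ring

/-- flat initial data stay flat -/
theorem CB.flat (h : CB g a b U K) (ha : ∀ x ∈ U, Sc (g a) x ≤ 0) :
    ∀ t ∈ Icc a b, ∀ x ∈ U, Sc (g t) x = 0 := fun t ht x hx =>
  le_antisymm (h.sc_le (φ := fun _ => 0) (φ' := fun _ => 0)
    (fun _ _ => hasDerivWithinAt_const _ _ _) (fun _ _ => by simp) ha t ht x hx) (h.sc_nonneg ht hx)

omit [IsManifold 𝓘(ℝ, E3) ∞ M] in
theorem cb_of_anc (h : P216DC.Anc g U) (hK : ∀ t ≤ 0, ∀ x ∈ U, Sc (g t) x ≤ K) (hab : a ≤ b)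
    (hb : b ≤ 0) : CB g a b U K :=
  ⟨h.rf.mono_time fun _ ht => ht.2.trans hb, hab, h.hs, h.conn, h.cpl b hb,
    fun t ht => h.sec t (ht.2.trans hb), fun t ht => hK t (ht.2.trans hb)⟩

/-- bounded ancient solutions that are not flat have positive scalar curvature -/
theorem anc_pos (hH : P216DC.HARN) (h : P216DC.Anc g U) (hb : P216DC.Bdd g U) {o : M} (ho : o ∈ U)
    (h0 : 0 < Sc (g 0) o) : ∀ t ≤ 0, ∀ x ∈ U, 0 < Sc (g t) x := fun t ht x hx => by
  obtain ⟨K, hK⟩ := hb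
  by_contra hn
  have := (cb_of_anc h hK (a := t - 1) (by linarith) le_rfl).flat (fun y hy => ?_) 0
    ⟨by linarith, le_rfl⟩ o ho
  · exact h0.ne' this
  · exact ((hH M g U h ⟨K, hK⟩ y hy).2 x hx (t - 1) t (by linarith) ht).trans
      (mul_nonpos_of_nonneg_of_nonpos (Real.exp_pos _).le (not_lt.1 hn))

end Vale.Agent.P216LC
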