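import Vale.Agent.P216LC.Nmp
import Vale.Agent.P216FA.Plan

/-!
# P216LC: the block NMP
-/

open scoped Manifold ContDiff Topology
open Set Filter

noncomputable section

namespace Vale.Agent.P216LC

open Vale.Agent.P216R Vale.Agent.P216MP

variable {M : Type} [TopologicalSpace M] [ChartedSpace E3 M] [IsManifold 𝓘(ℝ, E3) ∞ M]
  {g : ℝ → Ten E3 M} {a b K : ℝ} {U : Set M}

theorem CB.sc_exp (h : CB g a b U K) {k : ℝ} (ha : ∀ x ∈ U, Sc (g a) x ≤ k) :
    ∀ t ∈ Icc a b, ∀ x ∈ U, Sc (g t) x ≤ k * Real.exp (K * (t - a)) := fun t ht x hx => by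
  have ha' : a ∈ Icc a b := ⟨le_rfl, h.le⟩
  have k0 : 0 ≤ k := (h.sc_nonneg ha' hx).trans (ha x hx)
  have hφ : ∀ s ∈ Icc a b, HasDerivWithinAt (fun s => k * Real.exp (K * (s - a)))
      (k * (Real.exp (K * (s - a)) * K)) (Icc a b) s := fun s _ =>
    (((((hasDerivAt_id' s).sub_const a).const_mul K).exp.const_mul k).congr_deriv
      (by simp)).hasDerivWithinAt
  have := h.nmp (u := fun s y => -1 * (Sc (g s) y - k * Real.exp (K * (s - a)))) (C := K) (L := K)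
    (h.cont hφ (-1)) (fun s hs y hy => by
      linarith [h.bd s hs y hy, mul_nonneg k0 (Real.exp_pos (K * (s - a))).le])
    (fun y hy => by simpa using ha y hy) (fun s hs y hy _ => ?_) t ht x hx
  · linarith
  · have hs' := Ioc_subset_Icc_self hs
    refine (up_sc h.rf hs hy (-1) (hφ s hs')).mono ?_
    nlinarith [rq_le (h.rf.met hs') hy (h.sec s hs' y hy),
      mul_le_mul_of_nonneg_right (h.bd s hs' y hy) (h.sc_nonneg hs' hy)]

omit [IsManifold 𝓘(ℝ, E3) ∞ M] in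
theorem cb_of_nn [MeasurableSpace M] (hab : a ≤ b) (h : RF g (Icc a b) U)
    (H : ∀ t ∈ Icc a b, P216FA.NN (g t) U ∧ ∀ x ∈ U, Sc (g t) x ≤ K) : CB g a b U K :=
  have hb := (H b ⟨hab, le_rfl⟩).1
  ⟨h, hab, hb.hs, hb.con, hb.cpl, fun t ht => (H t ht).1.sec, fun t ht => (H t ht).2⟩

theorem nmp : P216FA.NMP := fun _ _ _ _ b _ hab h H =>
  ⟨fun _ hk => (cb_of_nn hab h H).sc_min hk b ⟨hab, le_rfl⟩,
    fun _ hk => (cb_of_nn hab h H).sc_exp hk b ⟨hab, le_rfl⟩⟩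

end Vale.Agent.P216LC
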