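import Vale.Agent.P216LC.S3
import Vale.Agent.P216U.Stab
import Vale.Agent.P216SG.Tri

/-!
# P216LC: separating necks survive in limits
-/

open scoped Manifold ContDiff Topology ENNReal
open Set Filter

noncomputable section

namespace Vale.Agent.P216LC

open Vale.Agent.P216R Vale.Agent.P216FA Vale.Agent.P216U Vale.Agent.P216SG

variable {ι : Type} {l : Ultrafilter ι} {M : ι → Type} [∀ n, TopologicalSpace (M n)]
  [∀ n, ChartedSpace E3 (M n)] [∀ n, IsManifold 𝓘(ℝ, E3) ∞ (M n)]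
  {X : Type} [TopologicalSpace X] [ChartedSpace E3 X] [IsManifold 𝓘(ℝ, E3) ∞ X]
  {U : ∀ n, Set (M n)} {g : ∀ n, Ten E3 (M n)} {F : ∀ n, X → M n} {h : Ten E3 X} {W : Set X}

theorem sep1_lim (hc : Conv l U g F h W) (hU : ∀ᶠ n in l, Hs (U n) ∧ Sepa (U n)) (hW : Cpl h W)
    {p : X} {s ε : ℝ} {σ : ι → ℝ} (hs : 0 < s) (hσ : Tendsto σ l (𝓝 s)) (hε : ε ≤ 1 / 1000)
    (hN : ∀ᶠ n in l, Cen (g n) (U n) (F n p) (σ n) ε) : SEP1 h W p s := by
  intro a b ha hb hab S s1 s2 s3 s4 s5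
  have hH := hU.mono fun _ k => k.1
  have f1 := ne_top_of_dd (show 0 < dd h W p a by linarith)
  have f2 := ne_top_of_dd (show 0 < dd h W p b by linarith)
  have f3 := ne_top_of_dd (show 0 < dd h W a b by linarith)
  have hp := (mem_of_ed_ne f1).1
  have t1 := hc.tendsto_dd hH (cb_of_cpl hW hp) (ap_const p) (ap_const a) le_top f1
  have t2 := hc.tendsto_dd hH (cb_of_cpl hW hp) (ap_const p) (ap_const b) le_top f2
  have t3 := hc.tendsto_dd hH (cb_of_cpl hW (s3 s4)) (ap_const a) (ap_const b) le_top f3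
  obtain ⟨V, v1, -, v2⟩ := hc.emb _ (s1.union (hW p hp (7 * s))) (union_subset s3 cbl_subset)
  have hS : S ⊆ V := subset_union_left.trans v1
  have e1 := ((t1.sub (hσ.const_mul 1400)).eventually (gt_mem_nhds (show _ < (0 : ℝ) by linarith)))
  have e2 := ((t2.sub (hσ.const_mul 1400)).eventually (gt_mem_nhds (show _ < (0 : ℝ) by linarith)))
  have e3 := ((((t1.sub t2).abs.add (hσ.const_mul 10)).sub t3).eventually
    (gt_mem_nhds (show _ < (0 : ℝ) by rw [ha, hb, sub_self, abs_zero]; linarith)))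
  obtain ⟨n, n1, n2, n3, n4, n5, n6, n7, n8, n9, n10⟩ := (hU.and (hN.and (v2.and (e1.and (e2.and
    (e3.and ((t1.eventually (lt_mem_nhds (show 0 < dd h W p a by linarith))).and
    ((t2.eventually (lt_mem_nhds (show 0 < dd h W p b by linarith))).and
    (((hσ.const_mul 5).eventually (gt_mem_nhds (show 5 * s < 6 * s by linarith))).and
    (hc.ball_sub hH (cb_of_cpl hW hp) hp (ap_const p) (r := ENNReal.ofReal (6 * s))
      (s := ENNReal.ofReal (7 * s)) ((ENNReal.ofReal_lt_ofReal_iff (by linarith)).2 (by linarith))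
      le_top)))))))))).exists
  obtain ⟨_, ⟨q, hq, rfl⟩, k⟩ := n2.sep n1.1 hε n1.2 (mem_bl_of_dd n7 (by linarith))
    (mem_bl_of_dd n8 (by linarith)) (by linarith)
    (s2.image _ (n3.1.smooth.continuousOn.mono hS)) (n3.2.2.mono_left hS).image_subset
    ⟨a, s4, rfl⟩ ⟨b, s5, rfl⟩
  obtain ⟨z, z1, z2⟩ := n10 (bl_subset_cbl (bl_mono n9.le k))
  exact ⟨q, hq, n3.2.1 (v1 (Or.inr (bl_subset_cbl z1))) (hS hq) z2 ▸ z1⟩

/-- necks on almost lines above the level `L` in separating slices give `LS` in the limit -/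
theorem ls_lim [∀ n, MeasurableSpace (M n)] [MeasurableSpace X] (hc : Conv l U g F h W)
    (hU : ∀ᶠ n in l, Met (g n) (U n) ∧ Hs (U n) ∧ Sepa (U n)) (hW : Cpl h W) {L A ε : ℝ}
    (hL : 0 ≤ L) (hA : 0 ≤ A) (hε : ε ≤ 1 / 1000) (hN : ∀ p ∈ W, L < Sc h p → ∀ᶠ n in l,
      AL (g n) (U n) (F n p) (A * sg (g n) (F n p)) (sg (g n) (F n p)) →
        Cen (g n) (U n) (F n p) (sg (g n) (F n p)) ε) : LS L A h W := fun p hp h1 h2 => by
  have h0 := hL.trans_lt h1
  have s0 := sg_pos h0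
  have t := hc.sg_ap (hU.mono fun _ k => k.1) hp (ap_const p) h0
  refine sep1_lim hc (hU.mono fun _ k => k.2) hW s0 t hε ?_
  filter_upwards [hN p hp h1, hc.al_ev (hU.mono fun _ k => k.2.1) (cb_of_cpl hW hp) (ap_const p)
    (by positivity) le_top h2 (t.const_mul A) t (by linarith) (by linarith)] with n k1 k2
    using k1 k2

end Vale.Agent.P216LC
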