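import Vale.Agent.P216U.Stab

/-!
# P216LC: lower bounds for the Ricci curvature pass to the limit at moving points
-/

open scoped Manifold ContDiff Topology ENNReal
open Set Filter

set_option maxSynthPendingDepth 3

noncomputable section

namespace Vale.Agent.P216LC

open Vale.Agent.P216R Vale.Agent.P216U Vale.Agent.P216DC Vale.Agent.P216BF

variable {E : Type} [NormedAddCommGroup E] [NormedSpace ℝ E] [FiniteDimensional ℝ E]
  {X : Type} [TopologicalSpace X] [ChartedSpace E X] [IsManifold 𝓘(ℝ, E) ∞ X]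

theorem ricGe_li {N : Type} [TopologicalSpace N] [ChartedSpace E N] [IsManifold 𝓘(ℝ, E) ∞ N]
    {h : Ten E X} {g : Ten E N} {f : X → N} {x : X} (H : LI h g f x) (k : ℝ) :
    RicGe h x k ↔ RicGe g (f x) k := by
  simp only [RicGe, H.Ric, H.apply]
  exact (H.surj.forall (p := fun v => k * g (f x) v v ≤ Ric g (f x) v v)).symm

theorem ricGe_ap {ι : Type} {l : Ultrafilter ι} {M : ι → Type} [∀ n, TopologicalSpace (M n)]
    [∀ n, ChartedSpace E (M n)] [∀ n, IsManifold 𝓘(ℝ, E) ∞ (M n)] {U : ∀ n, Set (M n)}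
    {g : ∀ n, Ten E (M n)} {F : ∀ n, X → M n} {h : Ten E X} {W : Set X} {p : X} {y : ∀ n, M n}
    (hc : Conv l U g F h W) (hg : ∀ᶠ n in l, Met (g n) (U n)) (hp : p ∈ W) (hy : Ap l F y p)
    {κ : ι → ℝ} {k : ℝ} (hκ : Tendsto κ l (𝓝 k)) (H : ∀ᶠ n in l, RicGe (g n) (y n) (κ n)) :
    RicGe h p k := by
  obtain ⟨a, h1, h2⟩ := hy
  have t0 := tendsto_id.prodMk h1
  have t := (tendsto_chart (l : Filter ι) (mem_chart_source E p)).comp t0
  have n := (isOpen_dom p hc.met.isOpen).mem_nhds (pt_mem_dom (E := E) hp)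
  have t1 := ((P216S.cv_ricG (hc.cv p) (hc.met.isMetricOn p)).loc n).tendsto.comp t
  have t2 := ((hc.cv p).loc n).tendsto.comp t
  refine (ricGe_li (li_chart hc.met hp (mem_chart_source E p)) k).2 fun v => ?_
  have c : Continuous fun B : Bil E => B v v := by fun_prop
  rw [Ric_model]
  refine le_of_tendsto_of_tendsto (hκ.mul ((c.tendsto _).comp t2)) ((c.tendsto _).comp t1) ?_
  filter_upwards [t0.eventually (emb_li hc.emb hg hp), h2, H,
    h1.eventually ((chartAt E p).open_source.mem_nhds (mem_chart_source E p))] with n k1 k2 k3 k4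
  obtain ⟨V, v1, v2⟩ := k1.met'
  have := (ricGe_li (li_chart v1 v2 k4) _).1 ((ricGe_li k1 _).2 (k2.symm ▸ k3)) v
  rwa [Ric_model] at this

end Vale.Agent.P216LC
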