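import Vale.Agent.P216LC.Ls
import Vale.Agent.P216FA.Plan

/-!
# P216LC: the block LSL
-/

open scoped Manifold ContDiff Topology ENNReal
open Set Filter

noncomputable section

namespace Vale.Agent.P216LC

open Vale.Agent.P216R Vale.Agent.P216FA Vale.Agent.P216U Vale.Agent.P216SG

theorem lsl : P216FA.LSL := by
  intro ι l X Y W g f h L A ε hc _ _ hW hU hL hε hN
  have hN' : ∀ p, L < Sc h p → ∀ᶠ n in l, AL (g n) (W n) (f n p) (A * sg (g n) (f n p))
      (sg (g n) (f n p)) → Cen (g n) (W n) (f n p) (sg (g n) (f n p)) ε := fun p hp => by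
    filter_upwards [hN p, (hc.sc_ap (hU.mono fun _ k => k.1) (mem_univ p) (ap_const p)).eventually
      (lt_mem_nhds hp)] with n k1 k2 using k1 k2.le
  rcases le_total 0 A with hA | hA
  · exact ls_lim hc hU hW hL.le hA hε fun p _ => hN' p
  intro p hp h1 _
  have h0 := hL.trans h1
  have t := hc.sg_ap (hU.mono fun _ k => k.1) hp (ap_const p) h0
  obtain ⟨V, v1, -, v2⟩ := hc.emb {p} isCompact_singleton (subset_univ _)
  refine sep1_lim hc (hU.mono fun _ k => k.2) hW (sg_pos h0) t hε ?_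
  filter_upwards [hN' p h1, v2, t.eventually (lt_mem_nhds (sg_pos h0))] with n k1 k2 k3
  have m := k2.2.2 (v1 rfl)
  refine k1 ⟨_, m, _, m, ?_, ?_, ?_⟩ <;> rw [dd_self] <;> nlinarith

end Vale.Agent.P216LC
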